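import Crest.Agent.Helper13.Gadget.Trie
import Crest.Agent.Helper65.S85.Main

/-!
# From a checked trie and a rational bracket to the conclusion of S0085 (helper13)

Glue between `Crest.Agent.Helper13.Gadget.Trie` (kernel-checked gadget certificate) and
helper65's conditional reduction `Crest.Agent.Helper65.S85.S0085_of_gadget`.

* `Trie.biasPoly65_eq` : helper65's bias polynomial of `t.toFun N` is `Trie.biasPoly t`;
* `Trie.exists_fixed_of_sign_change` : a sign change of `Q(p) - p` (or of `Q(p) - (1 - p)`) on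
  `[a, b]` gives a fixed (anti-fixed) point in `[a, b]`;
* `Trie.slope_of_lipschitz` : a lower bound for `|Q'|` on `[a, b] ⊆ [0, 1]` from its value at `a`
  and the crude Lipschitz constant `lipL`;
* `S0085_of_trie` : the conclusion of statement S0085 from these data.
-/

set_option autoImplicit false

open Finset

namespace Crest.Agent.Helper13.Gadget

namespace Trie

/-- Sum of the absolute values of the coefficients. -/
def sumAbs : List ℤ → ℤ
  | [] => 0
  | c :: l => |c| + sumAbs l

/-- A Lipschitz constant on `[0,1]` of the polynomial with the given coefficient list. -/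
def lipL : List ℤ → ℤ
  | [] => 0
  | _ :: l => sumAbs l + lipL l

theorem sumAbs_nonneg (l : List ℤ) : 0 ≤ sumAbs l := by
  induction l with
  | nil => simp [sumAbs]
  | cons c l ih => simp only [sumAbs]; positivity

theorem lipL_nonneg (l : List ℤ) : 0 ≤ lipL l := by
  induction l with
  | nil => simp [lipL]
  | cons c l ih => simp only [lipL]; have := sumAbs_nonneg l; omega

theorem abs_hornerL_le (l : List ℤ) (p : ℝ) (hp0 : 0 ≤ p) (hp1 : p ≤ 1) :
    |hornerL p l| ≤ (sumAbs l : ℝ) := by
  induction l with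
  | nil => simp [hornerL, sumAbs]
  | cons c l ih =>
    simp only [hornerL, sumAbs, Int.cast_add, Int.cast_abs]
    have h1 : |p * hornerL p l| ≤ (sumAbs l : ℝ) := by
      rw [abs_mul, abs_of_nonneg hp0]
      have h0 : (0 : ℝ) ≤ (sumAbs l : ℝ) := by exact_mod_cast sumAbs_nonneg l
      calc p * |hornerL p l| ≤ 1 * |hornerL p l| :=
            mul_le_mul_of_nonneg_right hp1 (abs_nonneg _)
        _ = |hornerL p l| := one_mul _
        _ ≤ (sumAbs l : ℝ) := ih
    calc |(c : ℝ) + p * hornerL p l| ≤ |(c : ℝ)| + |p * hornerL p l| := abs_add_le _ _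
      _ ≤ |(c : ℝ)| + (sumAbs l : ℝ) := by linarith

theorem hornerL_lipschitz (l : List ℤ) (p a : ℝ) (hp0 : 0 ≤ p) (hp1 : p ≤ 1) (ha0 : 0 ≤ a)
    (ha1 : a ≤ 1) : |hornerL p l - hornerL a l| ≤ (lipL l : ℝ) * |p - a| := by
  induction l with
  | nil => simp [hornerL, lipL]
  | cons c l ih =>
    simp only [hornerL, lipL, Int.cast_add]
    have hL0 : (0 : ℝ) ≤ (lipL l : ℝ) := by exact_mod_cast lipL_nonneg l
    have e : (c : ℝ) + p * hornerL p l - ((c : ℝ) + a * hornerL a l) =
        (p - a) * hornerL p l + a * (hornerL p l - hornerL a l) := by ring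
    rw [e]
    have h1 : |(p - a) * hornerL p l| ≤ |p - a| * (sumAbs l : ℝ) := by
      rw [abs_mul]
      exact mul_le_mul_of_nonneg_left (abs_hornerL_le l p hp0 hp1) (abs_nonneg _)
    have h2 : |a * (hornerL p l - hornerL a l)| ≤ (lipL l : ℝ) * |p - a| := by
      rw [abs_mul, abs_of_nonneg ha0]
      calc a * |hornerL p l - hornerL a l| ≤ 1 * |hornerL p l - hornerL a l| :=
            mul_le_mul_of_nonneg_right ha1 (abs_nonneg _)
        _ = |hornerL p l - hornerL a l| := one_mul _
        _ ≤ (lipL l : ℝ) * |p - a| := ih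
    calc |(p - a) * hornerL p l + a * (hornerL p l - hornerL a l)|
        ≤ |(p - a) * hornerL p l| + |a * (hornerL p l - hornerL a l)| := abs_add_le _ _
      _ ≤ |p - a| * (sumAbs l : ℝ) + (lipL l : ℝ) * |p - a| := by linarith
      _ = ((sumAbs l : ℝ) + (lipL l : ℝ)) * |p - a| := by ring

/-- Lower bound for the square of a polynomial on `[a, b] ⊆ [0, 1]` from its value at `a`. -/
theorem slope_of_lipschitz (l : List ℤ) (a b : ℝ) (ha : 0 ≤ a) (hab : a ≤ b) (hb : b ≤ 1)
    (D : ℕ) (m : ℝ) (hm : 0 ≤ m) (hDm : (D : ℝ) < m ^ 2)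
    (hbound : m ≤ |hornerL a l| - (lipL l : ℝ) * (b - a)) :
    ∀ p, a ≤ p → p ≤ b → (D : ℝ) < (hornerL p l) ^ 2 := by
  intro p hap hpb
  have hL0 : (0 : ℝ) ≤ (lipL l : ℝ) := by exact_mod_cast lipL_nonneg l
  have h1 := hornerL_lipschitz l p a (by linarith) (by linarith) ha (by linarith)
  have h2 : |p - a| ≤ b - a := by rw [abs_of_nonneg (by linarith)]; linarith
  have h3 : |hornerL p l - hornerL a l| ≤ (lipL l : ℝ) * (b - a) :=
    le_trans h1 (mul_le_mul_of_nonneg_left h2 hL0)
  have h4 : |hornerL a l| ≤ |hornerL p l| + |hornerL p l - hornerL a l| := by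
    have : hornerL a l = hornerL p l - (hornerL p l - hornerL a l) := by ring
    calc |hornerL a l| = |hornerL p l - (hornerL p l - hornerL a l)| := by rw [← this]
      _ ≤ |hornerL p l| + |hornerL p l - hornerL a l| := abs_sub _ _
  have h5 : m ≤ |hornerL p l| := by linarith
  calc (D : ℝ) < m ^ 2 := hDm
    _ ≤ |hornerL p l| ^ 2 := by
        apply pow_le_pow_left₀ hm h5
    _ = (hornerL p l) ^ 2 := sq_abs _

/-- Variant of `slope_of_lipschitz` without absolute values: the value at `a` is either at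
least `m + L (b - a)` or at most `-(m + L (b - a))`. -/
theorem slope_of_lipschitz' (l : List ℤ) (a b : ℝ) (ha : 0 ≤ a) (hab : a ≤ b) (hb : b ≤ 1)
    (D : ℕ) (m : ℝ) (hm : 0 ≤ m) (hDm : (D : ℝ) < m ^ 2)
    (hbound : m ≤ hornerL a l - (lipL l : ℝ) * (b - a) ∨
      m ≤ -(hornerL a l) - (lipL l : ℝ) * (b - a)) :
    ∀ p, a ≤ p → p ≤ b → (D : ℝ) < (hornerL p l) ^ 2 := by
  apply slope_of_lipschitz l a b ha hab hb D m hm hDm
  rcases hbound with h | h
  · have := le_abs_self (hornerL a l); linarith
  · have := neg_le_abs (hornerL a l); linarith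

theorem continuous_hornerL (l : List ℤ) : Continuous fun p : ℝ => hornerL p l := by
  induction l with
  | nil => simpa [hornerL] using continuous_const
  | cons c l ih =>
    simp only [hornerL]
    exact continuous_const.add (continuous_id.mul ih)

/-- Intermediate value theorem for a sign change of `F` on `[a, b]`. -/
theorem exists_zero_of_sign_change (F : ℝ → ℝ) (hF : Continuous F) (a b : ℝ) (hab : a ≤ b)
    (hsign : F a * F b ≤ 0) : ∃ p, a ≤ p ∧ p ≤ b ∧ F p = 0 := by
  by_cases h : F a ≤ 0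
  · by_cases h' : 0 ≤ F b
    · obtain ⟨p, hp, hp0⟩ := intermediate_value_Icc hab hF.continuousOn ⟨h, h'⟩
      exact ⟨p, hp.1, hp.2, hp0⟩
    · -- both negative: the product is positive unless `F a = 0`
      have hb : F b < 0 := lt_of_not_ge h'
      rcases eq_or_lt_of_le h with h0 | hlt
      · exact ⟨a, le_refl a, hab, h0⟩
      · exact absurd hsign (not_le.mpr (mul_pos_of_neg_of_neg hlt hb))
  · have ha : 0 < F a := lt_of_not_ge h
    by_cases h' : F b ≤ 0
    · obtain ⟨p, hp, hp0⟩ := intermediate_value_Icc' hab hF.continuousOn ⟨h', ha.le⟩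
      exact ⟨p, hp.1, hp.2, hp0⟩
    · have hb : 0 < F b := lt_of_not_ge h'
      exact absurd hsign (not_le.mpr (mul_pos ha hb))

/-- helper65's bias polynomial of the gadget is the trie's bias polynomial. -/
theorem biasPoly65_eq (t : Trie) (N : ℕ) (hc : check N t = true) (hk : t.depthLe N = true) :
    Crest.Agent.Helper65.S85.biasPoly (t.toFun N) = biasPoly t := by
  apply Polynomial.funext
  intro p
  rw [Crest.Agent.Helper65.S85.eval_biasPoly, ← bias t N hc hk p]
  unfold Crest.Agent.Helper65.S85.bias Crest.Agent.Helper65.S85.pw Crest.Agent.Helper65.S85.wt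
  apply Finset.sum_congr rfl
  intro x _
  split_ifs <;> simp

end Trie

/-- **Conclusion of statement S0085 from a checked gadget trie and a rational bracket.**
`cs` is the coefficient list of the bias polynomial `Q`; on `[a, b] ⊆ (0, 1)` either `Q(p) - p`
or `Q(p) - (1 - p)` changes sign, and `D < Q'(p)^2` throughout `[a, b]`. -/
theorem S0085_of_trie (t : Trie) (N D : ℕ) (hD : 1 ≤ D)
    (hc : Trie.check N t = true) (hd : t.degLe D = true) (hk : t.depthLe N = true)
    (cs : List ℤ) (hcs : Trie.biasCoeffs t = cs)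
    (a b : ℝ) (ha : 0 < a) (hab : a ≤ b) (hb : b < 1)
    (hsign : (Trie.hornerL a cs - a) * (Trie.hornerL b cs - b) ≤ 0 ∨
      (Trie.hornerL a cs - (1 - a)) * (Trie.hornerL b cs - (1 - b)) ≤ 0)
    (hslope : ∀ p, a ≤ p → p ≤ b → (D : ℝ) < (Trie.hornerL p (Trie.derivCoeffs cs)) ^ 2)
    (C : ℝ) (hC : 0 < C) :
    ∃ n : ℕ, ∃ f : (Fin n → Bool) → Bool, ∃ d : ℕ,
      (∃ x y, f x ≠ f y) ∧
      (∀ S : Finset (Fin n), d < S.card →
        ∑ x : Fin n → Bool, ((if f x then (1 : ℝ) else -1) *
          ∏ i ∈ S, (if x i then (1 : ℝ) else -1)) = 0) ∧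
      C * Real.sqrt d <
        ∑ i : Fin n, (∑ x : Fin n → Bool, ((if f x then (1 : ℝ) else -1) *
          (if x i then (1 : ℝ) else -1))) / 2 ^ n := by
  subst hcs
  have hpoly := Trie.biasPoly65_eq t N hc hk
  have hev : ∀ p : ℝ, (Crest.Agent.Helper65.S85.biasPoly (t.toFun N)).eval p =
      Trie.hornerL p (Trie.biasCoeffs t) := by
    intro p; rw [hpoly, Trie.eval_biasPoly]
  have hder : ∀ p : ℝ,
      (Polynomial.derivative (Crest.Agent.Helper65.S85.biasPoly (t.toFun N))).eval p =
      Trie.hornerL p (Trie.derivCoeffs (Trie.biasCoeffs t)) := by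
    intro p; rw [hpoly, Trie.eval_derivative_biasPoly]
  have hcont := Trie.continuous_hornerL (Trie.biasCoeffs t)
  -- the fixed or anti-fixed point
  obtain ⟨p, hap, hpb, hfix⟩ : ∃ p, a ≤ p ∧ p ≤ b ∧
      (Trie.hornerL p (Trie.biasCoeffs t) = p ∨ Trie.hornerL p (Trie.biasCoeffs t) = 1 - p) := by
    rcases hsign with h | h
    · obtain ⟨p, h1, h2, h3⟩ := Trie.exists_zero_of_sign_change
        (fun p => Trie.hornerL p (Trie.biasCoeffs t) - p) (hcont.sub continuous_id) a b hab h
      exact ⟨p, h1, h2, Or.inl (by linarith)⟩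
    · obtain ⟨p, h1, h2, h3⟩ := Trie.exists_zero_of_sign_change
        (fun p => Trie.hornerL p (Trie.biasCoeffs t) - (1 - p))
        (hcont.sub (continuous_const.sub continuous_id)) a b hab h
      exact ⟨p, h1, h2, Or.inr (by linarith)⟩
  refine Crest.Agent.Helper65.S85.S0085_of_gadget N (t.toFun N) D hD
    (fun S hS => Trie.fourier_vanish t N D hc hd S hS) p (by linarith) (by linarith) ?_ ?_ C hC
  · rcases hfix with h | h
    · exact Or.inl (by rw [hev]; exact h)
    · exact Or.inr (by rw [hev]; exact h)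
  · rw [hder]
    exact hslope p hap hpb

end Crest.Agent.Helper13.Gadget
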