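import Mathlib

/-!
# A kernel-checkable certificate format for low-degree Boolean functions (helper13)

A Boolean function `g : (Fin N → Bool) → Bool` is presented by the `0/1`-multilinear polynomial of
its indicator, stored as a binary trie: `node p0 p1` stands for `p0 + x₀ * p1`, where `x₀` is the
first remaining variable, and `leaf c` for the constant `c`.

* `Trie.check N t = true` (a kernel computation, by recursive restriction of the first variable)
  certifies that the polynomial takes only the values `0` and `1` on the whole cube;
* `Trie.degLe t D = true` certifies (syntactically) that its degree is at most `D`;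
* `Trie.depthLe t N = true` certifies that it uses at most `N` variables.

From these, `Trie.fourier_vanish` gives the vanishing of all Fourier–Walsh sums of `Trie.toFun t N`
on sets of more than `D` coordinates (in the `±1` form used by statement S0085), and `Trie.bias`
identifies the bias polynomial `p ↦ Pr_p[g = true]` with `Trie.biasPoly t`.
-/

set_option autoImplicit false

open Finset

namespace Crest.Agent.Helper13.Gadget

/-- Binary trie of a multilinear polynomial with integer coefficients:
`node p0 p1 = p0 + x₀ * p1` in the remaining variables, `leaf c = c`. -/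
inductive Trie where
  | leaf : ℤ → Trie
  | node : Trie → Trie → Trie

namespace Trie

/-- Value of the polynomial at the point `x` (a `k`-bit vector; `true` is `1`, `false` is `0`).
A `node` met with no variable left is read as its constant branch. -/
def eval : Trie → (k : ℕ) → (Fin k → Bool) → ℤ
  | leaf c, _, _ => c
  | node p0 _, 0, x => eval p0 0 x
  | node p0 p1, k + 1, x =>
      eval p0 k (Fin.tail x) + (if x 0 then eval p1 k (Fin.tail x) else 0)

/-- Add a constant. -/
def addConst (a : ℤ) : Trie → Trie
  | leaf b => leaf (a + b)
  | node q0 q1 => node (addConst a q0) q1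

/-- Sum of two polynomials. -/
def add : Trie → Trie → Trie
  | leaf a, q => addConst a q
  | node p0 p1, leaf b => node (addConst b p0) p1
  | node p0 p1, node q0 q1 => node (add p0 q0) (add p1 q1)

/-- Booleanity check by recursive restriction of the first variable (`n` = fuel = number of
variables): the restriction to `x₀ = 0` is `p0`, the restriction to `x₀ = 1` is `p0 + p1`. -/
def check : ℕ → Trie → Bool
  | _, leaf c => c == 0 || c == 1
  | 0, node _ _ => false
  | n + 1, node p0 p1 => check n p0 && check n (add p0 p1)

/-- The polynomial is syntactically zero. -/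
def isZero : Trie → Bool
  | leaf c => c == 0
  | node p0 p1 => isZero p0 && isZero p1

/-- Syntactic degree bound. -/
def degLe : Trie → ℕ → Bool
  | leaf _, _ => true
  | node p0 p1, 0 => degLe p0 0 && isZero p1
  | node p0 p1, D + 1 => degLe p0 (D + 1) && (isZero p1 || degLe p1 D)

/-- The trie has depth at most `k` (uses at most `k` variables). -/
def depthLe : Trie → ℕ → Bool
  | leaf _, _ => true
  | node _ _, 0 => false
  | node p0 p1, k + 1 => depthLe p0 k && depthLe p1 k

/-- The Boolean function presented by the trie on `N` variables. -/
def toFun (t : Trie) (N : ℕ) : (Fin N → Bool) → Bool :=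
  fun x => decide (t.eval N x = 1)

/-- Bias polynomial: expectation of the polynomial when every variable is `1` with probability
`p`, independently. -/
noncomputable def biasPoly : Trie → Polynomial ℝ
  | leaf c => Polynomial.C (c : ℝ)
  | node p0 p1 => biasPoly p0 + Polynomial.X * biasPoly p1

/-- Coefficientwise sum of two coefficient lists. -/
def addL : List ℤ → List ℤ → List ℤ
  | [], l => l
  | a :: l, [] => a :: l
  | a :: l, b :: m => (a + b) :: addL l m

/-- Coefficient list (constant term first) of the bias polynomial. -/
def biasCoeffs : Trie → List ℤ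
  | leaf c => [c]
  | node p0 p1 => addL (biasCoeffs p0) (0 :: biasCoeffs p1)

/-- Polynomial with a given coefficient list (constant term first). -/
noncomputable def ofCoeffs : List ℤ → Polynomial ℝ
  | [] => 0
  | c :: l => Polynomial.C (c : ℝ) + Polynomial.X * ofCoeffs l

/-! ### Evaluation lemmas -/

theorem eval_addConst (a : ℤ) (q : Trie) (k : ℕ) (x : Fin k → Bool) :
    (addConst a q).eval k x = a + q.eval k x := by
  induction q generalizing k with
  | leaf b => simp [addConst, eval]
  | node q0 q1 ih0 _ =>
    cases k with
    | zero => simp [addConst, eval, ih0]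
    | succ k => simp [addConst, eval, ih0]; ring

theorem eval_add (p q : Trie) (k : ℕ) (x : Fin k → Bool) :
    (add p q).eval k x = p.eval k x + q.eval k x := by
  induction p generalizing q k with
  | leaf a => simp [add, eval, eval_addConst]
  | node p0 p1 ih0 ih1 =>
    cases q with
    | leaf b =>
      cases k with
      | zero => simp [add, eval, eval_addConst]; ring
      | succ k => simp [add, eval, eval_addConst]; ring
    | node q0 q1 =>
      cases k with
      | zero => simp [add, eval, ih0]
      | succ k =>
        simp only [add, eval, ih0, ih1]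
        split <;> ring

theorem isZero_eval (t : Trie) (h : t.isZero = true) (k : ℕ) (x : Fin k → Bool) :
    t.eval k x = 0 := by
  induction t generalizing k with
  | leaf c => simpa [isZero, eval] using h
  | node p0 p1 ih0 ih1 =>
    simp only [isZero, Bool.and_eq_true] at h
    cases k with
    | zero => simp [eval, ih0 h.1]
    | succ k => simp [eval, ih0 h.1, ih1 h.2]

/-- Soundness of the Booleanity check. -/
theorem check_sound (n : ℕ) (t : Trie) (h : check n t = true) (k : ℕ) (x : Fin k → Bool) :
    t.eval k x = 0 ∨ t.eval k x = 1 := by
  induction n generalizing t k with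
  | zero =>
    cases t with
    | leaf c => simpa [check, eval] using h
    | node p0 p1 => simp [check] at h
  | succ n ih =>
    cases t with
    | leaf c => simpa [check, eval] using h
    | node p0 p1 =>
      simp only [check, Bool.and_eq_true] at h
      cases k with
      | zero => simpa [eval] using ih p0 h.1 0 x
      | succ k =>
        simp only [eval]
        by_cases hx : x 0 = true
        · have := ih (add p0 p1) h.2 k (Fin.tail x)
          rw [eval_add] at this
          simpa [hx] using this
        · have := ih p0 h.1 k (Fin.tail x)
          simpa [hx] using this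

/-! ### Sums over the cube -/

/-- Splitting a sum over `(k+1)`-bit vectors according to the first bit. -/
theorem sum_cube_succ {M : Type*} [AddCommMonoid M] (k : ℕ) (F : (Fin (k + 1) → Bool) → M) :
    ∑ x : Fin (k + 1) → Bool, F x =
      ∑ y : Fin k → Bool, (F (Fin.cons true y) + F (Fin.cons false y)) := by
  rw [← (Fin.consEquiv (fun _ : Fin (k + 1) => Bool)).sum_comp F, Fintype.sum_prod_type,
    Fintype.sum_bool, ← Finset.sum_add_distrib]
  rfl

/-- Sign of a Boolean, as used by statement S0085. -/
def sgn (b : Bool) : ℝ := if b then 1 else -1

/-- Character attached to the indicator vector `s`. -/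
def chi {k : ℕ} (s : Fin k → Bool) (x : Fin k → Bool) : ℝ :=
  ∏ i, (if s i then sgn (x i) else 1)

/-- Number of coordinates selected by `s`. -/
def cnt {k : ℕ} (s : Fin k → Bool) : ℕ := (Finset.univ.filter (fun i => s i = true)).card

theorem chi_cons {k : ℕ} (s : Fin (k + 1) → Bool) (b : Bool) (y : Fin k → Bool) :
    chi s (Fin.cons b y) = (if s 0 then sgn b else 1) * chi (Fin.tail s) y := by
  unfold chi
  rw [Fin.prod_univ_succ]
  simp only [Fin.cons_zero, Fin.cons_succ, Fin.tail]
  rfl

theorem cnt_succ {k : ℕ} (s : Fin (k + 1) → Bool) :
    cnt s = (if s 0 then 1 else 0) + cnt (Fin.tail s) := by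
  unfold cnt
  rw [Finset.card_filter, Finset.card_filter, Fin.sum_univ_succ]
  simp only [Fin.tail]
  rfl

theorem sum_chi_eq_zero {k : ℕ} (s : Fin k → Bool) (h : 0 < cnt s) :
    ∑ x : Fin k → Bool, chi s x = 0 := by
  unfold chi
  have hps := Fintype.prod_sum (fun (i : Fin k) (b : Bool) => if s i then sgn b else 1)
  rw [← hps]
  obtain ⟨i, hi⟩ : ∃ i, s i = true := by
    unfold cnt at h
    obtain ⟨i, hi⟩ := Finset.card_pos.mp h
    exact ⟨i, (Finset.mem_filter.mp hi).2⟩
  apply Finset.prod_eq_zero (Finset.mem_univ i)
  simp [hi, sgn]

/-- Core vanishing statement: a polynomial of degree at most `D` is orthogonal to every character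
on more than `D` coordinates. -/
theorem fourier_core (t : Trie) (D : ℕ) (hd : t.degLe D = true) (k : ℕ) (s : Fin k → Bool)
    (hs : D < cnt s) : ∑ x : Fin k → Bool, (t.eval k x : ℝ) * chi s x = 0 := by
  induction t generalizing D k with
  | leaf c =>
    simp only [eval]
    rw [← Finset.mul_sum, sum_chi_eq_zero s (by omega), mul_zero]
  | node p0 p1 ih0 ih1 =>
    cases k with
    | zero =>
      exfalso
      have : cnt s = 0 := by simp [cnt]
      omega
    | succ k =>
      rw [sum_cube_succ]
      simp only [eval, Fin.tail_cons, Fin.cons_zero, chi_cons]
      have hcnt := cnt_succ s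
      -- the degree data
      have h0 : p0.degLe D = true := by
        cases D with
        | zero => simp only [degLe, Bool.and_eq_true] at hd; exact hd.1
        | succ D => simp only [degLe, Bool.and_eq_true] at hd; exact hd.1
      -- the `p1` part: orthogonal to `chi (tail s)` as soon as `cnt (tail s) + 1 > D`
      have h1 : D < cnt (Fin.tail s) + 1 →
          ∑ y : Fin k → Bool, (p1.eval k y : ℝ) * chi (Fin.tail s) y = 0 := by
        intro hlt
        cases D with
        | zero =>
          simp only [degLe, Bool.and_eq_true] at hd
          simp [isZero_eval p1 hd.2]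
        | succ D =>
          simp only [degLe, Bool.and_eq_true, Bool.or_eq_true] at hd
          rcases hd.2 with hz | hdeg
          · simp [isZero_eval p1 hz]
          · exact ih1 D hdeg k (Fin.tail s) (by omega)
      by_cases hs0 : s 0 = true
      · -- first coordinate selected: only `p1` survives
        have hlt : D < cnt (Fin.tail s) + 1 := by
          rw [hcnt] at hs; simp [hs0] at hs; omega
        have key := h1 hlt
        calc ∑ y : Fin k → Bool,
              ((((p0.eval k y + (if true = true then p1.eval k y else 0) : ℤ) : ℝ) *
                  ((if s 0 = true then sgn true else 1) * chi (Fin.tail s) y)) +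
                (((p0.eval k y + (if false = true then p1.eval k y else 0) : ℤ) : ℝ) *
                  ((if s 0 = true then sgn false else 1) * chi (Fin.tail s) y)))
            = ∑ y : Fin k → Bool, (p1.eval k y : ℝ) * chi (Fin.tail s) y := by
              apply Finset.sum_congr rfl
              intro y _
              simp [hs0, sgn]
              ring
          _ = 0 := key
      · -- first coordinate not selected
        have hs0' : s 0 = false := by simpa using hs0
        have hlt0 : D < cnt (Fin.tail s) := by
          rw [hcnt] at hs; simp [hs0'] at hs; omega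
        have key0 := ih0 D h0 k (Fin.tail s) hlt0
        have key1 := h1 (by omega)
        calc ∑ y : Fin k → Bool,
              ((((p0.eval k y + (if true = true then p1.eval k y else 0) : ℤ) : ℝ) *
                  ((if s 0 = true then sgn true else 1) * chi (Fin.tail s) y)) +
                (((p0.eval k y + (if false = true then p1.eval k y else 0) : ℤ) : ℝ) *
                  ((if s 0 = true then sgn false else 1) * chi (Fin.tail s) y)))
            = 2 * ∑ y : Fin k → Bool, (p0.eval k y : ℝ) * chi (Fin.tail s) y +
                ∑ y : Fin k → Bool, (p1.eval k y : ℝ) * chi (Fin.tail s) y := by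
              rw [Finset.mul_sum, ← Finset.sum_add_distrib]
              apply Finset.sum_congr rfl
              intro y _
              simp [hs0']
              ring
          _ = 0 := by rw [key0, key1]; ring

/-! ### The Boolean function of a checked trie -/

theorem toFun_ite_sign (t : Trie) (N : ℕ) (hc : check N t = true) (x : Fin N → Bool) :
    (if t.toFun N x then (1 : ℝ) else -1) = 2 * (t.eval N x : ℝ) - 1 := by
  unfold toFun
  rcases check_sound N t hc N x with h | h
  · simp [h]
  · simp [h]; norm_num

theorem toFun_ite_ind (t : Trie) (N : ℕ) (hc : check N t = true) (x : Fin N → Bool) :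
    (if t.toFun N x then (1 : ℝ) else 0) = (t.eval N x : ℝ) := by
  unfold toFun
  rcases check_sound N t hc N x with h | h <;> simp [h]

theorem toFun_eq_true_iff (t : Trie) (N : ℕ) (x : Fin N → Bool) :
    t.toFun N x = true ↔ t.eval N x = 1 := by
  simp [toFun]

/-- **Vanishing of the high Fourier–Walsh sums**, in the exact form of statement S0085: if the
trie passes the Booleanity check on `N` variables and has syntactic degree at most `D`, then
every Fourier–Walsh sum of the Boolean function `t.toFun N` over a set of more than `D`
coordinates is zero. -/
theorem fourier_vanish (t : Trie) (N D : ℕ) (hc : check N t = true) (hd : t.degLe D = true)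
    (S : Finset (Fin N)) (hS : D < S.card) :
    ∑ x : Fin N → Bool, ((if t.toFun N x then (1 : ℝ) else -1) *
      ∏ i ∈ S, (if x i then (1 : ℝ) else -1)) = 0 := by
  classical
  set s : Fin N → Bool := fun i => decide (i ∈ S) with hs
  have hcnt : cnt s = S.card := by
    unfold cnt
    congr 1
    ext i
    simp [hs]
  have hchi : ∀ x : Fin N → Bool, ∏ i ∈ S, (if x i then (1 : ℝ) else -1) = chi s x := by
    intro x
    unfold chi sgn
    rw [← Fintype.prod_ite_mem]
    apply Finset.prod_congr rfl
    intro i _
    simp [hs]
  have h1 := fourier_core t D hd N s (by omega)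
  have h2 := sum_chi_eq_zero s (by omega)
  calc ∑ x : Fin N → Bool, ((if t.toFun N x then (1 : ℝ) else -1) *
        ∏ i ∈ S, (if x i then (1 : ℝ) else -1))
      = ∑ x : Fin N → Bool, (2 * ((t.eval N x : ℝ) * chi s x) - chi s x) := by
        apply Finset.sum_congr rfl
        intro x _
        rw [toFun_ite_sign t N hc x, hchi x]
        ring
    _ = 0 := by
        rw [Finset.sum_sub_distrib, ← Finset.mul_sum, h1, h2]
        ring

/-! ### Bias polynomial -/

/-- Weight of the point `x` under the product measure with `Pr[xᵢ = true] = p`. -/
def wt {k : ℕ} (p : ℝ) (x : Fin k → Bool) : ℝ := ∏ i, (if x i then p else 1 - p)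

theorem wt_cons {k : ℕ} (p : ℝ) (b : Bool) (y : Fin k → Bool) :
    wt p (Fin.cons b y : Fin (k + 1) → Bool) = (if b then p else 1 - p) * wt p y := by
  unfold wt
  rw [Fin.prod_univ_succ]
  simp only [Fin.cons_zero, Fin.cons_succ]

theorem sum_wt {k : ℕ} (p : ℝ) : ∑ x : Fin k → Bool, wt p x = 1 := by
  unfold wt
  have hps := Fintype.prod_sum (fun (_ : Fin k) (b : Bool) => if b then p else 1 - p)
  rw [← hps]
  simp

theorem bias_core (t : Trie) (k : ℕ) (hk : t.depthLe k = true) (p : ℝ) :
    ∑ x : Fin k → Bool, (t.eval k x : ℝ) * wt p x = (biasPoly t).eval p := by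
  induction t generalizing k with
  | leaf c =>
    simp only [eval, biasPoly, Polynomial.eval_C]
    rw [← Finset.mul_sum, sum_wt, mul_one]
  | node p0 p1 ih0 ih1 =>
    cases k with
    | zero => simp [depthLe] at hk
    | succ k =>
      simp only [depthLe, Bool.and_eq_true] at hk
      rw [sum_cube_succ]
      simp only [eval, Fin.tail_cons, Fin.cons_zero, wt_cons, biasPoly, Polynomial.eval_add,
        Polynomial.eval_mul, Polynomial.eval_X]
      rw [← ih0 k hk.1, ← ih1 k hk.2, Finset.mul_sum, ← Finset.sum_add_distrib]
      apply Finset.sum_congr rfl
      intro y _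
      simp
      ring

/-- **Bias polynomial of the gadget**: for every `p`, the probability (sum of product weights)
that `t.toFun N` is `true` equals `biasPoly t` evaluated at `p`. -/
theorem bias (t : Trie) (N : ℕ) (hc : check N t = true) (hk : t.depthLe N = true) (p : ℝ) :
    ∑ x : Fin N → Bool, ((if t.toFun N x then (1 : ℝ) else 0) *
      ∏ i, (if x i then p else 1 - p)) = (biasPoly t).eval p := by
  rw [← bias_core t N hk p]
  apply Finset.sum_congr rfl
  intro x _
  rw [toFun_ite_ind t N hc x]
  rfl

/-- A constant gadget has a constant bias polynomial (as a function). -/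
theorem bias_const_of_const (t : Trie) (N : ℕ) (hc : check N t = true)
    (hk : t.depthLe N = true) (hconst : ∀ x y, t.toFun N x = t.toFun N y) (p q : ℝ) :
    (biasPoly t).eval p = (biasPoly t).eval q := by
  rw [← bias t N hc hk p, ← bias t N hc hk q]
  set x0 : Fin N → Bool := fun _ => false
  have h : ∀ (r : ℝ), ∑ x : Fin N → Bool, ((if t.toFun N x then (1 : ℝ) else 0) *
      ∏ i, (if x i then r else 1 - r)) = (if t.toFun N x0 then (1 : ℝ) else 0) := by
    intro r
    have : ∀ x : Fin N → Bool, ((if t.toFun N x then (1 : ℝ) else 0) *
        ∏ i, (if x i then r else 1 - r)) = (if t.toFun N x0 then (1 : ℝ) else 0) * wt r x := by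
      intro x
      rw [hconst x x0]
      rfl
    rw [Finset.sum_congr rfl (fun x _ => this x), ← Finset.mul_sum, sum_wt, mul_one]
  rw [h p, h q]

/-- Non-constancy from two different values of the bias polynomial. -/
theorem nonconst_of_bias (t : Trie) (N : ℕ) (hc : check N t = true)
    (hk : t.depthLe N = true) (p q : ℝ) (hpq : (biasPoly t).eval p ≠ (biasPoly t).eval q) :
    ∃ x y, t.toFun N x ≠ t.toFun N y := by
  by_contra hcon
  have hcon' : ∀ x y, t.toFun N x = t.toFun N y := by
    intro x y
    by_contra hxy
    exact hcon ⟨x, y, hxy⟩
  exact hpq (bias_const_of_const t N hc hk hcon' p q)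

/-! ### Coefficient list of the bias polynomial -/

theorem ofCoeffs_addL (l m : List ℤ) : ofCoeffs (addL l m) = ofCoeffs l + ofCoeffs m := by
  induction l generalizing m with
  | nil => simp [addL, ofCoeffs]
  | cons a l ih =>
    cases m with
    | nil => simp [addL, ofCoeffs]
    | cons b m =>
      simp only [addL, ofCoeffs, ih, Int.cast_add, Polynomial.C_add]
      ring

/-- The bias polynomial is the polynomial with coefficient list `biasCoeffs t`. -/
theorem biasPoly_eq_ofCoeffs (t : Trie) : biasPoly t = ofCoeffs (biasCoeffs t) := by
  induction t with
  | leaf c => simp [biasPoly, biasCoeffs, ofCoeffs]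
  | node p0 p1 ih0 ih1 =>
    simp only [biasPoly, biasCoeffs, ofCoeffs_addL, ofCoeffs, ih0, ih1, Int.cast_zero,
      Polynomial.C_0, zero_add]

/-- Horner evaluation of a coefficient list. -/
def hornerL (p : ℝ) : List ℤ → ℝ
  | [] => 0
  | c :: l => (c : ℝ) + p * hornerL p l

theorem eval_ofCoeffs (l : List ℤ) (p : ℝ) : (ofCoeffs l).eval p = hornerL p l := by
  induction l with
  | nil => simp [ofCoeffs, hornerL]
  | cons c l ih => simp [ofCoeffs, hornerL, ih]

/-- Evaluation of the bias polynomial through its coefficient list. -/
theorem eval_biasPoly (t : Trie) (p : ℝ) : (biasPoly t).eval p = hornerL p (biasCoeffs t) := by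
  rw [biasPoly_eq_ofCoeffs, eval_ofCoeffs]

/-! ### Derivative of the bias polynomial through coefficient lists -/

/-- Coefficient list of the derivative: `(c + X q)' = q + X q'`. -/
def derivCoeffs : List ℤ → List ℤ
  | [] => []
  | _ :: l => addL l (0 :: derivCoeffs l)

theorem derivative_ofCoeffs (l : List ℤ) :
    Polynomial.derivative (ofCoeffs l) = ofCoeffs (derivCoeffs l) := by
  induction l with
  | nil => simp [ofCoeffs, derivCoeffs]
  | cons c l ih =>
    simp only [ofCoeffs, derivCoeffs, ofCoeffs_addL, Polynomial.derivative_add,
      Polynomial.derivative_C, Polynomial.derivative_mul, Polynomial.derivative_X, ih,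
      Int.cast_zero, Polynomial.C_0]
    ring

/-- Evaluation of the derivative of the bias polynomial through the coefficient list. -/
theorem eval_derivative_biasPoly (t : Trie) (p : ℝ) :
    (Polynomial.derivative (biasPoly t)).eval p = hornerL p (derivCoeffs (biasCoeffs t)) := by
  rw [biasPoly_eq_ofCoeffs, derivative_ofCoeffs, eval_ofCoeffs]

end Trie

end Crest.Agent.Helper13.Gadget
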